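import Vale.Agent.P235.K5.H332.NLoc
import Vale.Agent.P235.K5.H332.Slots

set_option linter.all false

/-!
# P235, line SX (helper655), rows [S4] and [S4b]: Theorem N with a lower bound inside the regions
of bags with one new vertex
-/

namespace Vale.Agent.P235.K5.SX.H332

open Finset Vale.Agent.P235 Vale.Agent.P235.H926 Vale.Agent.P235.K5 Vale.Agent.P235.K5.H439
  Vale.Agent.P235.K5.H332 Vale.Agent.P235.K5.H838

/-- the mean of the captured increments -/
theorem mean_low {T V : Type} {d : T → V → V → ℝ} {par : T → T} {root : T → Prop}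
    {S : T → Finset V} {C : T → V → V → ℝ} {κ ε : ℝ} (R : BProc T V d par root S C κ ε)
    (hκ : 0 < κ) {t : T} {p q : V} (hC : 0 ≤ C t p q) :
    κ * (1 - ε) * C t p q ≤ ∑ o, R.P t o * |R.g t o p - R.g t o q| := by
  have h1 := R.ac t p q
  have h2 := R.P_sum t
  have hκC : 0 ≤ κ * C t p q := mul_nonneg hκ.le hC
  have h3 : ∀ o, κ * C t p q * R.P t o - κ * C t p q *
      (if |R.g t o p - R.g t o q| < κ * C t p q then R.P t o else 0) ≤
      R.P t o * |R.g t o p - R.g t o q| := by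
    intro o
    have h4 := R.P_nonneg t o
    split_ifs with h5
    · have h6 := mul_nonneg h4 (abs_nonneg (R.g t o p - R.g t o q))
      linarith
    · push Not at h5
      have h6 := mul_le_mul_of_nonneg_left h5 h4
      linarith
  have h7 := Finset.sum_le_sum fun o (_ : o ∈ Finset.univ) => h3 o
  rw [Finset.sum_sub_distrib, ← Finset.mul_sum, ← Finset.mul_sum, h2] at h7
  have h8 := mul_le_mul_of_nonneg_left h1 hκC
  linarith

section

variable {n : ℕ} {T : Type} {dt : T → Fin n → Fin n → ℝ} {par : T → T} {root : T → Prop}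
  {S H : T → Finset (Fin n)} {Cc : T → Fin n → Fin n → ℝ} {κ ε : ℝ}

/-- **[NLOC]** with the lower bound from the captures -/
theorem nlocL [Finite T] (R : BProc T (Fin n) dt par root S Cc κ ε) (hκ : 0 < κ)
    (hdt : ∀ t p q, 0 ≤ dt t p q)
    (rk : T → ℕ) (M : ℕ) (hrk : ∀ t, ¬ root t → rk (par t) < rk t) (hM : ∀ t, rk t ≤ M)
    (hSH : ∀ t, S t ⊆ H t) (hSP : ∀ t, ¬ root t → S t ⊆ H (par t))
    (hne : ∀ t, ¬ root t → (S t).Nonempty) {kk : ℕ} (hkk : 0 < kk)
    (hcard : ∀ t, (S t).card ≤ kk) (hε : kk * ε ≤ PathChain.thSeq kk (kk - 1) / 4)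
    {c0 : ℝ} (hc0 : 0 < c0) (D : T → Fin n → Fin n → ℝ)
    (hD0 : ∀ t, ∀ z ∈ H t, z ∉ S t → ∀ a ∈ S t, 0 ≤ D t z a)
    (hDd : ∀ t, ∀ z ∈ H t, z ∉ S t → ∀ a ∈ S t, dt t z a ≤ 2 * D t z a)
    (hDC : ∀ t, ¬ root t → ∀ z ∈ H t, z ∉ S t → ∀ a ∈ S t, c0 * D t z a ≤ Cc t z a) :
    ∃ (μ : T → (Fin n → Bool) → ℝ) (Λ : ℝ), 0 < Λ ∧ (∀ t, H684.IsLaw (μ t)) ∧
      (∀ t, ¬ root t → ∀ h : (Fin n → Bool) → ℝ, H684.DepOn (S t : Set (Fin n)) h →
        H684.Ex (μ t) h = H684.Ex (μ (par t)) h) ∧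
      (∀ t p q, Λ * H684.Ex (μ t) (H684.dif p q) ≤ dt t p q / 2) ∧
      (∀ t p q, 0 ≤ Cc t p q → κ * (1 - ε) * Cc t p q ≤ Λ * H684.Ex (μ t) (H684.dif p q)) ∧
      (∀ (τ : ℕ → T) (N : ℕ), NPath par root τ N → 0 < N → ∀ z ∈ H (τ N), ∀ r : Fin n → ℝ,
        (∀ a ∈ S (τ 1), r a ≤ 0) →
        (∀ i < N, ∀ z ∈ H (τ (i + 1)), z ∉ S (τ (i + 1)) → ∀ a ∈ S (τ (i + 1)),
          r z ≤ r a + D (τ (i + 1)) z a) →
        ∃ (c : ℝ) (Ω : Type) (_ : Fintype Ω) (w : Ω → ℝ) (X : ℕ → Ω → (Fin n → Bool)),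
          NodeCoup μ S H τ N z c w X ∧ r z ≤ PathChain.C1 kk (κ * c0) * (Λ * c)) := by
  classical
  obtain ⟨G, hG0, hG⟩ := R.exists_bound
  set K : ℝ := G * (2 * M + 1) with hKdef
  have hM0 : (0 : ℝ) ≤ M := Nat.cast_nonneg M
  have hGK : G ≤ K := by
    rw [hKdef]
    nlinarith
  have hK : 0 < K := lt_of_lt_of_le hG0 hGK
  have hgK : ∀ t o p, |R.g t o p| ≤ K := fun t o p => (hG t o p).trans hGK
  have hκ' : 0 < κ * c0 := mul_pos hκ hc0
  have hC1 : 0 < PathChain.C1 kk (κ * c0) := PathChain.C1_pos hkk hκ'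
  have hEx : ∀ t p p', 2 * K * H684.Ex (H957.lawOf K (R.P t) (R.g t)) (H684.dif p p') =
        ∑ o, R.P t o * |R.g t o p - R.g t o p'| := by
    intro t p p'
    rw [H957.Ex_lawOf]
    have h1 := H957.mu_ne (R.P t) (g := R.g t) (p := p) (q := p') (fun o => hgK t o p)
      (fun o => hgK t o p')
    have h2 : (H684.dif p p' : (Fin n → Bool) → ℝ) = fun X => if X p = X p' then 0 else 1 := rfl
    rw [h2, h1]
    field_simp
  refine ⟨fun t => H957.lawOf K (R.P t) (R.g t), 2 * K, by positivity, fun t =>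
    H957.lawOf_isLaw hK (R.P_nonneg t) (R.P_sum t) (R.g t), ?_, ?_, ?_, ?_⟩
  · -- consistency
    intro t ht h hh
    rw [H957.Ex_lawOf, H957.Ex_lawOf]
    refine (H957.mu_step (Q := R.Q t) (R.Q_nonneg t) (R.Q_left t ht) (R.Q_right t ht)
      (fun o' a ha => R.ce t ht a ha o') ?_ (fun o a _ => hgK _ _ _) hh).symm
    intro o' a ha b hb
    rcases le_total (R.g t o' a) (R.g t o' b) with h2 | h2
    · exact Or.inl fun o ho => (R.ord t ht o o' ho.ne' a ha b hb).mpr h2
    · exact Or.inr fun o ho => (R.ord t ht o o' ho.ne' b hb a ha).mpr h2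
  · -- the upper bound
    intro t p p'
    rw [hEx]
    exact R.mean_abs hdt t p p'
  · -- the lower bound
    intro t p p' hC
    rw [hEx]
    exact mean_low R hκ hC
  · -- the couplings
    intro τ N hp hN z hz r hr0 hr
    have hNM : N ≤ M := by
      have h1 : ∀ i ≤ N, i ≤ rk (τ i) := by
        intro i
        induction i with
        | zero => intro _; exact Nat.zero_le _
        | succ i ih =>
          intro hi
          have h2 := ih (by omega)
          have h3 := hrk _ (hp.nroot i (by omega))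
          rw [hp.par i (by omega)] at h3
          omega
      exact (h1 N le_rfl).trans (hM _)
    have hNM' : (N : ℝ) ≤ M := by exact_mod_cast hNM
    set Ch := chainOf (H := H) R hSH hSP hne hp with hCh
    have hB0 : Ch.B 0 = S (τ 1) := by
      show (if (0 : ℕ) = 0 then S (τ 1) else H (τ 0)) = S (τ 1)
      exact if_pos rfl
    have hBs : ∀ i, Ch.B (i + 1) = H (τ (i + 1)) := by
      intro i
      show (if i + 1 = 0 then S (τ 1) else H (τ (i + 1))) = H (τ (i + 1))
      exact if_neg (Nat.succ_ne_zero i)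
    have hzN : z ∈ Ch.B N := by
      obtain ⟨N', rfl⟩ : ∃ N', N = N' + 1 := ⟨N - 1, by omega⟩
      rw [hBs]
      exact hz
    obtain ⟨Om', hf, P', X, h1, h2, h3, h4⟩ := coupling_fresh Ch (G := G)
      (K := K) hK (fun i _ ω p _ => hG _ _ _) hG0.le (by rw [hKdef]; nlinarith) hkk hκ' hε
      (r := r) (d := fun i z a => D (τ i) z a)
      (fun i _ => hcard _)
      (by
        intro v hv
        rw [hB0] at hv
        exact hr0 v hv)
      (by
        intro i hi z hz hzA a ha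
        rw [hBs] at hz
        exact hr i hi z hz hzA a ha)
      (by
        intro i hi z hz hzA a ha
        rw [hBs] at hz
        exact hD0 _ z hz hzA a ha)
      (by
        intro i hi z hz hzA a ha
        rw [hBs] at hz
        have h5 := R.mean_abs hdt (τ (i + 1)) z a
        have h6 := hDd _ z hz hzA a ha
        show ∑ ω, R.P (τ (i + 1)) ω * |R.g (τ (i + 1)) ω z - R.g (τ (i + 1)) ω a| ≤
          D (τ (i + 1)) z a
        linarith)
      (by
        intro i hi z hz hzA a ha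
        rw [hBs] at hz
        have h5 := R.ac (τ (i + 1)) z a
        refine le_trans (sum_le_sum fun ω _ => ?_) h5
        show (if |R.g (τ (i + 1)) ω z - R.g (τ (i + 1)) ω a| < κ * c0 * D (τ (i + 1)) z a
          then R.P (τ (i + 1)) ω else 0) ≤ (if |R.g (τ (i + 1)) ω z - R.g (τ (i + 1)) ω a| <
          κ * Cc (τ (i + 1)) z a then R.P (τ (i + 1)) ω else 0)
        have h6 := mul_le_mul_of_nonneg_left (hDC _ (hp.nroot i hi) z hz hzA a ha) hκ.le
        have h7 := R.P_nonneg (τ (i + 1)) ω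
        split_ifs with c1 c2 c2
        · exact le_rfl
        · exact absurd (lt_of_lt_of_le c1 (by rw [mul_assoc]; exact h6)) c2
        · exact h7
        · exact le_rfl)
      (x := z) hzN
    refine ⟨r z / (2 * K * PathChain.C1 kk (κ * c0)), Om', hf, P', X, ⟨h1, ?_, ?_, ?_⟩, ?_⟩
    · intro i hi1 hi h hh
      rw [H957.Ex_lawOf]
      refine h2 i hi h fun X X' hX => hh X X' fun v hv => hX v ?_
      obtain ⟨i', rfl⟩ : ∃ i', i = i' + 1 := ⟨i - 1, by omega⟩
      rw [hBs]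
      exact mem_coe.mp hv
    · intro i _ hi ω hω v hv
      exact h3 i hi ω hω v hv
    · intro f hf01 hfd
      have h5 := h4 fun Y => decide (f Y = 1)
      refine h5.trans (le_of_eq (sum_congr rfl fun ω _ => ?_))
      by_cases hω : P' ω = 0
      · rw [hω, zero_mul, zero_mul]
      congr 1
      have h6 : f (X 1 ω) = f (X 0 ω) := hfd _ _ fun v hv => (h3 0 hN ω hω v (mem_coe.mp hv)).symm
      rw [h6]
      rcases hf01 (X 0 ω) with h7 | h7 <;> rw [h7] <;> cases X N ω z <;> simp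
    · have h5 : PathChain.C1 kk (κ * c0) * (2 * K * (r z / (2 * K *
          PathChain.C1 kk (κ * c0)))) = r z := by
        field_simp
      rw [h5]

end

/-- the regions: `ty t` = the torso `t` has one new vertex and belongs to a region, `RR t` = the
adhesion of its region -/
structure Reg {n T k : ℕ} (Z : Tor n T k) (ty : Fin T → Prop)
    (RR : Fin T → Finset (Fin n)) : Prop where
  step : ∀ t, ty t → Z.up t ≠ t → ¬ Z.S t ⊆ RR t → ty (Z.up t) ∧ RR (Z.up t) = RR t ∧
    ∀ z z', Z.tor z = Z.up t → Z.tor z' = Z.up t → z = z'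

/-- **Output of Theorem N**, with a lower bound inside the regions -/
def NLawLow {n T k : ℕ} (Z : Tor n T k) (ty : Fin T → Prop) (RR : Fin T → Finset (Fin n))
    (d : Fin n → Fin n → ℝ) (C1 cN : ℝ) : Prop :=
  ∃ (μ : Fin T → (Fin n → Bool) → ℝ) (Λ : ℝ), 0 < Λ ∧ (∀ t, H684.IsLaw (μ t)) ∧ Z.ConsT μ ∧
    (∀ t, ∀ p ∈ Z.H t, ∀ p' ∈ Z.H t, Λ * H684.Ex (μ t) (H684.dif p p') ≤ d p p') ∧
    (∀ (s : ℕ → Fin T) (N : ℕ), H684.Path Z.tree s N → ∀ z : Fin n, Z.tor z = s N →
      ∀ r : ℝ, 0 < r → (∀ a ∈ Z.S (s 1), r ≤ d z a) →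
      ∃ (c : ℝ) (Ω : Type) (_ : Fintype Ω) (w : Ω → ℝ) (X : ℕ → Ω → (Fin n → Bool)),
        Z.CoupT μ s N z c w X ∧ r ≤ C1 * (Λ * c)) ∧
    (∀ t, ty t → ∀ z, Z.tor z = t → ∀ a ∈ Z.S t, ∀ m : ℝ, m ≤ d z a →
      (∀ r ∈ RR t, ∀ r' ∈ RR t, m ≤ d z r + d a r') →
      cN * m ≤ Λ * H684.Ex (μ t) (H684.dif z a))

theorem NLawLow.nlaw {n T k : ℕ} {Z : Tor n T k} {ty : Fin T → Prop}
    {RR : Fin T → Finset (Fin n)} {d : Fin n → Fin n → ℝ} {C1 cN : ℝ}
    (h : NLawLow Z ty RR d C1 cN) : Z.NLaw d C1 := by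
  obtain ⟨μ, Λ, h1, h2, h3, h4, h5, -⟩ := h
  exact ⟨μ, Λ, h1, h2, h3, h4, h5⟩

section region

variable {n T k : ℕ} {Z : Tor n T k} {d : Fin n → Fin n → ℝ}

theorem mem_H_up {t : Fin T} {a : Fin n} (ha : a ∈ Z.S t) :
    a ∈ Z.S (Z.up t) ∨ Z.tor a = Z.up t := Z.sub t a ha

theorem pm_of (h : Z.Sep d) : PM d := ⟨h.self, h.symm, h.tri⟩

/-- one step of the region lemma -/
theorem reg_X_of (h : Z.Sep d) {r0 : Fin n} (hr0 : (Z.tor r0).val = 0)
    {RR : Fin T → Finset (Fin n)} {u : Fin T}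
    (ih : ∀ p ∈ Z.S u, ∀ q ∈ Z.S u, ∀ m : ℝ, m ≤ d p q →
      (∀ r ∈ RR u, ∀ r' ∈ RR u, m ≤ d p r + d q r') → m ≤ (tree838 h hr0).rho u p q)
    {q : Fin n} (hq : q ∈ Z.S u) (p : Fin n) (m : ℝ) (h1 : m ≤ d p q)
    (h2 : ∀ r ∈ RR u, ∀ r' ∈ RR u, m ≤ d p r + d q r') : m ≤ (tree838 h hr0).X u q p := by
  have hnr := nonroot_of_mem hq
  have hS : (tree838 h hr0).S u = Z.S u := SS_of_ne hnr
  have hne : ((tree838 h hr0).S u).Nonempty := by rw [hS]; exact ⟨q, hq⟩
  obtain ⟨a, ha, h3⟩ := exists_XX (d := d) (ρ := (tree838 h hr0).rho u) hne q p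
  have h4 : (tree838 h hr0).X u q p = d p a + (tree838 h hr0).rho u a q := h3
  rw [h4]
  rw [hS] at ha
  have h5 := ih a ha q hq (m - d p a) (by
    have := h.tri p a q
    linarith) (by
    intro r hr r' hr'
    have h6 := h2 r hr r' hr'
    have h7 := h.tri p a r
    linarith)
  linarith

/-- **[S4b]** the region lemma -/
theorem reg_rho (h : Z.Sep d) {r0 : Fin n} (hr0 : (Z.tor r0).val = 0) {ty : Fin T → Prop}
    {RR : Fin T → Finset (Fin n)} (hR : Reg Z ty RR) : ∀ (N : ℕ) (t : Fin T), t.val ≤ N → ty t →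
    ∀ p ∈ Z.S t, ∀ q ∈ Z.S t, ∀ m : ℝ, m ≤ d p q →
      (∀ r ∈ RR t, ∀ r' ∈ RR t, m ≤ d p r + d q r') → m ≤ (tree838 h hr0).rho t p q := by
  intro N
  induction N with
  | zero =>
    intro t ht _ p hp
    exfalso
    have h1 := nonroot_of_mem hp
    have h2 := slo_up_lt h1
    rw [Fin.lt_def] at h2
    omega
  | succ N ih =>
    intro t ht hty p hp q hq m h1 h2
    have hd := pm_of h
    have hnr := nonroot_of_mem hp
    have hpar : (tree838 h hr0).par t = some (Z.up t) := if_neg hnr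
    rw [(tree838 h hr0).rho_eq_E hpar]
    have hE : ∀ x y, 0 ≤ (tree838 h hr0).E (Z.up t) x y := ((tree838 h hr0).E_pm _).nonneg
    by_cases hsub : Z.S t ⊆ RR t
    · have h3 := h2 p (hsub hp) q (hsub hq)
      rw [h.self, h.self, add_zero] at h3
      exact h3.trans (hE _ _)
    · obtain ⟨hty', hRR, huq⟩ := hR.step t hty hnr hsub
      have hlt := slo_up_lt hnr
      rw [Fin.lt_def] at hlt
      have IH := ih (Z.up t) (by omega) hty'
      rw [← hRR] at h2
      rcases mem_H_up hq with hq' | hq'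
      · have hSu : q ∈ (tree838 h hr0).S (Z.up t) := by
          show q ∈ SS Z r0 (Z.up t)
          rw [SS_of_ne (nonroot_of_mem hq')]
          exact hq'
        rw [← (tree838 h hr0).X_eq_E hd hSu p]
        exact reg_X_of h hr0 IH hq' p m h1 h2
      · rcases mem_H_up hp with hp' | hp'
        · have hSu : p ∈ (tree838 h hr0).S (Z.up t) := by
            show p ∈ SS Z r0 (Z.up t)
            rw [SS_of_ne (nonroot_of_mem hp')]
            exact hp'
          rw [((tree838 h hr0).E_pm _).symm, ← (tree838 h hr0).X_eq_E hd hSu q]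
          refine reg_X_of h hr0 IH hp' q m (by rw [h.symm]; exact h1) ?_
          intro r hr r' hr'
          have := h2 r' hr' r hr
          linarith
        · have hpq := huq p q hp' hq'
          subst hpq
          rw [h.self] at h1
          exact h1.trans (hE _ _)

/-- the contracted distance inside a region -/
theorem reg_X (h : Z.Sep d) {r0 : Fin n} (hr0 : (Z.tor r0).val = 0) {ty : Fin T → Prop}
    {RR : Fin T → Finset (Fin n)} (hR : Reg Z ty RR) {t : Fin T} (ht : ty t) {a : Fin n}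
    (ha : a ∈ Z.S t) (z : Fin n) (m : ℝ) (h1 : m ≤ d z a)
    (h2 : ∀ r ∈ RR t, ∀ r' ∈ RR t, m ≤ d z r + d a r') : m ≤ (tree838 h hr0).X t a z :=
  reg_X_of h hr0 (reg_rho h hr0 hR t.val t le_rfl ht) ha z m h1 h2

end region

/-- **[S4]** Theorem N with the lower bound in the regions -/
theorem nthmLow : ∀ k : ℕ, 1 ≤ k → ∃ C1 cN : ℝ, 0 < C1 ∧ 0 < cN ∧
    ∀ (n T : ℕ) (Z : Tor n T k) (d : Fin n → Fin n → ℝ), Z.Sep d →
      ∀ (ty : Fin T → Prop) (RR : Fin T → Finset (Fin n)), Reg Z ty RR →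
        NLawLow Z ty RR d C1 cN := by
  classical
  intro k hk
  have hth := PathChain.thSeq_pos hk (k - 1)
  have hkR : (0 : ℝ) < (k : ℝ) := by exact_mod_cast hk
  set ε : ℝ := min (1 / 2) (PathChain.thSeq k (k - 1) / 4 / (k : ℝ)) with hεdef
  have hε0 : 0 < ε := lt_min (by norm_num) (by positivity)
  have hε1 : ε ≤ 1 / 2 := min_le_left _ _
  have hε2 : k * ε ≤ PathChain.thSeq k (k - 1) / 4 := by
    have h1 : ε ≤ PathChain.thSeq k (k - 1) / 4 / (k : ℝ) := min_le_right _ _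
    have h2 := mul_le_mul_of_nonneg_left h1 hkR.le
    refine h2.trans (le_of_eq ?_)
    field_simp
  obtain ⟨κ, hκ, HB⟩ := exists_bproc k (H360.Nodes.LL k (k * (k * k) + 1)) hε0
  refine ⟨PathChain.C1 k (κ * (1 / 62)), κ / 124, PathChain.C1_pos hk (by positivity),
    by positivity, ?_⟩
  intro n T Z d h ty RR hR
  have hd : PM d := pm_of h
  rcases isEmpty_or_nonempty (Fin n) with hn | ⟨⟨v0⟩⟩
  · have hT : ∀ t : Fin T, False := fun t => by
      obtain ⟨v, -⟩ := Z.surj t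
      exact hn.false v
    exact ⟨fun t => (hT t).elim, 1, one_pos, fun t => (hT t).elim, fun t => (hT t).elim,
      fun t => (hT t).elim, fun s => (hT (s 0)).elim, fun t => (hT t).elim⟩
  obtain ⟨r0, hr⟩ := Z.surj ⟨0, (Nat.zero_le _).trans_lt (Z.tor v0).isLt⟩
  have hr0 : (Z.tor r0).val = 0 := by rw [hr]
  set D := tree838 h hr0 with hD
  have hcard : ∀ t, (D.S t).card ≤ k := by
    intro t
    show (SS Z r0 t).card ≤ k
    unfold SS
    split_ifs
    · rw [card_singleton]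
      exact hk
    · exact Z.card t
  have hM : ∀ p q, d p q ≤ ∑ x : Fin n × Fin n, d x.1 x.2 := fun p q =>
    Finset.single_le_sum (f := fun x : Fin n × Fin n => d x.1 x.2)
      (fun x _ => hd.nonneg _ _) (mem_univ (p, q))
  set M0 : ℝ := ∑ x : Fin n × Fin n, d x.1 x.2 with hM0
  obtain ⟨η, h1, h2, h3, -, h5⟩ := D.slots hd hcard (fun t => SS_ne h t) M0 hM
  have hSt : ∀ {t : Fin T} {a : Fin n}, a ∈ Z.S t → a ∈ D.S t := by
    intro t a ha
    show a ∈ SS Z r0 t
    rw [SS_of_ne (nonroot_of_mem ha)]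
    exact ha
  have hXn : ∀ t z, ∀ a ∈ Z.S t, 0 ≤ D.X t a z := fun t z a ha =>
    ((D.E_pm t).nonneg z a).trans (D.E_le_X hd (hSt ha) z)
  have hdtn : ∀ t p q, 0 ≤ D.dt M0 t p q := fun t p q =>
    ((D.E_pm t).nonneg p q).trans (D.E_le_dt hd hM t p q)
  have hup : ∀ {t : Fin T}, ¬ Z.up t = t → D.par t = some (Z.up t) := fun ht => if_neg ht
  obtain ⟨R⟩ := HB (Fin T) (Fin n) (D.dt M0) Z.up (fun t => t.val) (fun t => Z.up t = t) Z.S η
    (fun t z a => if a ∈ Z.S t then D.X t a z / 62 else 0) hdtn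
    (fun t ht p q => D.dt_par hd hM (hup ht) p q) (fun t ht => Fin.lt_def.1 (slo_up_lt ht))
    Z.card h2
    (fun t ht j => by
      rcases h3 t j with ⟨s, hs, h6⟩ | h6
      · rw [hup ht] at hs
        cases hs
        exact Or.inl h6
      · exact Or.inr fun a ha => h6 a (hSt ha))
    (fun t z a hpos => by
      by_cases ha : a ∈ Z.S t
      · simp only [if_pos ha] at hpos ⊢
        exact h5 t z a (hSt ha) (by linarith)
      · simp only [if_neg ha] at hpos
        exact absurd hpos (lt_irrefl _))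
  have hSne : ∀ t, ¬ Z.up t = t → (Z.S t).Nonempty := by
    intro t ht
    have := SS_ne h (r0 := r0) t
    rwa [SS_of_ne ht] at this
  have hHU : ∀ {t : Fin T} {v : Fin n}, v ∈ Z.H t → v ∈ D.U t := fun hv => H_sub_SU hv
  obtain ⟨μ, Λ, hΛ, hlaw, hcons, hupp, hlow, hfar⟩ := nlocL (H := Z.H) R hκ hdtn
    (fun t => t.val) T (fun t ht => Fin.lt_def.1 (slo_up_lt ht)) (fun t => t.isLt.le)
    (fun t => subset_union_left)
    (fun t _ => by
      intro a ha
      unfold Tor.H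
      rw [mem_union, mem_filter]
      rcases Z.sub t a ha with h6 | h6
      · exact Or.inl h6
      · exact Or.inr ⟨mem_univ _, h6⟩)
    hSne hk Z.card hε2 (c0 := 1 / 62) (by norm_num) (fun t z a => D.X t a z)
    (fun t z _ _ a ha => hXn t z a ha)
    (fun t z hz _ a ha => by
      have h6 : D.dt M0 t z a = D.E t z a := D.dt_of_mem (hHU hz) (D.S_sub t a (hSt ha))
      have h7 := D.E_le_X hd (hSt ha) z
      have h8 := hXn t z a ha
      rw [h6]
      linarith)
    (fun t _ z _ _ a ha => by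
      simp only [if_pos ha]
      linarith)
  refine ⟨μ, Λ, hΛ, hlaw, hcons, ?_, ?_, ?_⟩
  · intro t p hp p' hp'
    have h6 := hupp t p p'
    have h7 : D.dt M0 t p p' = D.E t p p' := D.dt_of_mem (hHU hp) (hHU hp')
    have h8 := D.E_le hd t p p'
    have h9 := hd.nonneg p p'
    linarith
  · intro s N hp z hz r hr hrd
    have hN := hp.pos
    have hnr : ∀ i < N, ¬ Z.up (s (i + 1)) = s (i + 1) := by
      intro i hi h6
      exact hp.ne i hi ((hp.par i hi).symm.trans h6)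
    have hzH : z ∈ Z.H (s N) := by
      unfold Tor.H
      rw [mem_union, mem_filter]
      exact Or.inr ⟨mem_univ _, hz⟩
    have hne1 : (Z.S (s 1)).Nonempty := hSne (s 1) (hnr 0 hN)
    have hS1 : D.S (s 1) = Z.S (s 1) := SS_of_ne (hnr 0 hN)
    obtain ⟨c, Ω, hf, w, X, hco, hle⟩ := hfar s N ⟨fun i hi => hp.par i hi, hnr⟩ hN z hzH
      (D.F (s 1))
      (fun a ha => le_of_eq (D.F_mem hd (hSt ha)))
      (fun i hi z hz _ a ha => by
        have hA := anc_of_desc h hr0 (hp.desc (i := i + 1) (by omega) hi)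
        have h6 := D.F_le_E hd (s 1) z a
        have h7 := D.X_point hd hA (hSt ha) (hHU hz)
        have h8 := le_abs_self (D.F (s 1) z - D.F (s 1) a)
        linarith)
    refine ⟨c, Ω, hf, w, X, ⟨hco.nonneg, hco.bag, hco.agree, hco.far⟩, ?_⟩
    refine le_trans ?_ hle
    obtain ⟨a, ha, h6⟩ := D.F_near (by rw [hS1]; exact hne1 : (D.S (s 1)).Nonempty) z
    rw [h6]
    rw [hS1] at ha
    exact hrd a ha
  · intro t hty z _ a ha m hm hmr
    have h6 := reg_X h hr0 hR hty ha z m hm hmr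
    have h7 := hXn t z a ha
    have h8 := hlow t z a (by simp only [if_pos ha]; positivity)
    simp only [if_pos ha] at h8
    refine le_trans ?_ h8
    have h9 : κ / 124 * m ≤ κ / 124 * D.X t a z := mul_le_mul_of_nonneg_left h6 (by positivity)
    refine h9.trans ?_
    have h10 : 0 ≤ κ * D.X t a z := mul_nonneg hκ.le h7
    nlinarith

end Vale.Agent.P235.K5.SX.H332
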