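import Vale.Agent.P235.K5.SX.H332.NStmt
import Vale.Agent.P235.K5.SX.Asm

/-!
# P235, line SX: row [S4] in the literal of `SX/Asm.lean`
-/

namespace Vale.Agent.P235.K5.SX.H332

open Vale.Agent.P235 Vale.Agent.P235.K5

/-- **[S4]** -/
theorem s4 : SX.NStmt := by
  intro k hk
  obtain ⟨cN, C2, h1, h2, h3, H⟩ := nStmt k hk
  exact ⟨cN, C2, h1, h2, h3, fun V _ G m B h T TT RR hnew hR d hd hG =>
    H V G m B h T TT RR hnew ⟨hR.one, hR.step⟩ d hd hG⟩

end Vale.Agent.P235.K5.SX.H332
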