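import Vale.Agent.P235.K5.SX.H332.NLow
import Vale.Agent.P235.K5.H12.Red
import Vale.Agent.P235.K5.H578.NHalf
import Vale.Agent.P235.K5.H500.Bag
import Vale.Agent.P235.R2.H598.PSum

set_option linter.all false

/-!
# P235, line SX: the cut metric of Theorem N on a clique sum, with the lower bound in the regions
-/

namespace Vale.Agent.P235.K5.SX.H332

open Finset Function Vale.Agent.P235 Vale.Agent.P235.H684 Vale.Agent.P235.K5
  Vale.Agent.P235.K5.H578

/-- **The N half**, with the lower bound in the regions. -/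
theorem n_half_low {n T k : ℕ} (Z : Tor n T k) (hk : 1 ≤ k) {d : Fin n → Fin n → ℝ}
    {ty : Fin T → Prop} {RR : Fin T → Finset (Fin n)} {C1 cN : ℝ} (hC1 : 0 ≤ C1)
    (hN : NLawLow Z ty RR d C1 cN) : ∃ F : Fin n → Fin n → ℝ, IsL1 F ∧
      (∀ t, ∀ p ∈ Z.H t, ∀ q ∈ Z.H t, F p q ≤ d p q) ∧
      (∀ t : Fin T, t.val ≠ 0 → ∀ z, Z.Below t z → ∀ y, ¬ Z.Below t y →
        ∀ r : ℝ, 0 < r → (∀ a ∈ Z.S t, r ≤ d z a) →
          r ≤ C1 * H254.KK (2 ^ k) * F z y) ∧
      ∀ t, ty t → ∀ z, Z.tor z = t → ∀ a ∈ Z.S t, ∀ m : ℝ, m ≤ d z a →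
        (∀ r ∈ RR t, ∀ r' ∈ RR t, m ≤ d z r + d a r') → cN * m ≤ F z a := by
  obtain ⟨μ, Λ, hΛ, hμ, hcons, hup, hfar, hlow⟩ := hN
  have hc : ∀ t : Fin T, t.val ≠ 0 → ∀ h : (Fin n → Bool) → ℝ,
      DepOn ((ofTor Z).S t : Set (Fin n)) h → Ex (μ t) h = Ex (μ ((ofTor Z).par t)) h := by
    intro t ht h hh
    exact hcons t (ne_of_lt (Z.up_lt t (Nat.pos_of_ne_zero ht))) h hh
  refine ⟨fun x y => Λ * PM (KK (ofTor Z).elim fun v => μ ((ofTor Z).β v)) fun X =>
    if X x = X y then 0 else 1, ?_, ?_, ?_, ?_⟩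
  · exact (isL1_PM ((ofTor Z).kk_ker hμ) id).smul hΛ.le
  · intro t p hp q hq
    show Λ * PM _ _ ≤ _
    rw [(ofTor Z).PM_dif hμ hc (t := t) hp hq]
    exact hup t p hp q hq
  · intro t ht z hz y hy r hr hra
    obtain ⟨j, hj⟩ := hz
    have hj' : Z.up^[j] (Z.tor z) = t := hj
    have hne := up_iter_ne Z hj' ht
    set s : ℕ → Fin T := fun i => Z.up^[j + 1 - i] (Z.tor z) with hs
    have hsN : s (j + 1) = Z.tor z := by
      simp only [hs, Nat.sub_self, Function.iterate_zero, id_eq]
    have hs1 : s 1 = t := by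
      simp only [hs, Nat.add_sub_cancel]
      exact hj'
    have hpar : ∀ i < j + 1, Z.up (s (i + 1)) = s i := by
      intro i hi
      simp only [hs]
      have e : j + 1 - i = (j + 1 - (i + 1)) + 1 := by omega
      rw [e, Function.iterate_succ_apply']
    have hval : ∀ i < j + 1, (s (i + 1)).val ≠ 0 := by
      intro i hi
      exact hne (j + 1 - (i + 1)) (by omega)
    have hP : Path Z.tree s (j + 1) := by
      refine ⟨Nat.succ_pos _, hpar, fun i hi h => ?_⟩
      have h1 := Z.up_lt (s (i + 1)) (Nat.pos_of_ne_zero (hval i hi))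
      rw [hpar i hi, h] at h1
      exact lt_irrefl _ h1
    obtain ⟨c, Ω, hΩ, w, X, hX, hrc⟩ := hfar s (j + 1) hP z hsN.symm r hr (by
      rw [hs1]
      exact hra)
    have hX' : H578.CoupT (ofTor Z) μ s (j + 1) z c w X := by
      refine ⟨hX.nonneg, ?_, hX.agree, hX.far⟩
      intro i h1 hi h hh
      refine hX.bag i h1 hi h (hh.mono ?_)
      rintro v (hv | hv)
      · exact Finset.mem_coe.2 (Finset.mem_union_left _ (Finset.mem_coe.1 hv))
      · by_cases h3 : i < j + 1
        · rw [if_pos h3] at hv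
          have hv' : v ∈ Z.S (s (i + 1)) := Finset.mem_coe.1 hv
          rcases Z.sub _ v hv' with h4 | h4
          · rw [hpar i h3] at h4
            exact Finset.mem_coe.2 (Finset.mem_union_left _ h4)
          · rw [hpar i h3] at h4
            exact Finset.mem_coe.2 (Finset.mem_union_right _
              (Finset.mem_filter.2 ⟨Finset.mem_univ _, h4⟩))
        · rw [if_neg h3] at hv
          have hv' : v = z := Finset.mem_singleton.1 (Finset.mem_coe.1 hv)
          have hi' : i = j + 1 := by omega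
          rw [hv', hi']
          exact Finset.mem_coe.2 (Finset.mem_union_right _
            (Finset.mem_filter.2 ⟨Finset.mem_univ _, hsN.symm⟩))
    have hy' : ¬ (ofTor Z).Anc (s 1) ((ofTor Z).β y) := by
      rw [hs1, anc_iff]
      exact hy
    have hz' : z ∈ (ofTor Z).H (s (j + 1)) := by
      rw [hsN]
      exact Finset.mem_union_right _ ((ofTor Z).mem_new.2 rfl)
    have h5 := far_bags (ofTor Z) hμ hc (Nat.succ_pos j)
      (fun i hi => ⟨hval i hi, hpar i hi⟩) hz' hk (fun t => Z.card t) hX' hy'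
    refine hrc.trans ?_
    show C1 * (Λ * c) ≤ C1 * H254.KK (2 ^ k) * (Λ * PM _ _)
    have h6 := mul_le_mul_of_nonneg_left h5 (mul_nonneg hC1 hΛ.le)
    calc C1 * (Λ * c) = C1 * Λ * c := by ring
      _ ≤ _ := h6
      _ = _ := by ring
  · intro t ht z hz a ha m h1 h2
    have hzH : z ∈ Z.H t := by
      unfold Tor.H
      rw [mem_union, mem_filter]
      exact Or.inr ⟨mem_univ _, hz⟩
    have haH : a ∈ Z.H t := mem_union_left _ ha
    show _ ≤ Λ * PM _ _
    rw [(ofTor Z).PM_dif hμ hc (t := t) hzH haH]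
    exact hlow t ht z hz a ha m h1 h2

/-- the regions of a clique sum (helper655) -/
structure RegionG {V : Type} (m : ℕ) (B : ℕ → Set V) (T : BTree m B) (TT : ℕ → Prop)
    (RR : ℕ → Set V) : Prop where
  one : ∀ s < m, TT s → ∃ v, v ∉ Adh B s ∧ B s = insert v (Adh B s)
  step : ∀ s < m, TT s → 0 < s → Adh B s ⊆ RR s ∨ (TT (T.par s) ∧ RR (T.par s) = RR s)

theorem kk_pos' (K : ℕ) : 0 < H254.KK K := by
  unfold H254.KK
  positivity

/-- the cut metric of Theorem N on a clique sum, with the lower bound in the regions -/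
theorem nStmt : ∀ k : ℕ, 1 ≤ k → ∃ cN C2 : ℝ, 0 < cN ∧ cN ≤ 1 ∧ 0 < C2 ∧
    ∀ (V : Type) [Finite V] (H : SimpleGraph V) (m : ℕ) (B : ℕ → Set V) (h : Glued k H m B)
      (T : BTree m B) (TT : ℕ → Prop) (RR : ℕ → Set V), (∀ t < m, ∃ v ∈ B t, v ∉ Bef B t) →
      RegionG m B T TT RR → ∀ d : V → V → ℝ, IsMet d → Gen H d →
      ∃ F : V → V → ℝ, IsL1 F ∧ (∀ x y, F x y ≤ d x y) ∧
        (∀ t < m, 0 < t → ∀ x ∈ h.Sub T t, ∀ y ∉ h.Sub T t, ∀ r : ℝ, 0 < r →
          (∀ a ∈ Adh B t, r ≤ d x a) → r ≤ C2 * F x y) ∧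
        ∀ s < m, TT s → ∀ x ∈ B s, ∀ y ∈ B s, ∀ M : ℝ, M ≤ d x y →
          (∀ r ∈ RR s, ∀ r' ∈ RR s, M ≤ d x r + d y r') → cN * M ≤ F x y := by
  classical
  intro k hk
  obtain ⟨C1, cN, hC1, hcN, HN⟩ := nthmLow k hk
  refine ⟨min cN 1, C1 * H254.KK (2 ^ k), lt_min hcN one_pos, min_le_right _ _,
    mul_pos hC1 (kk_pos' _), ?_⟩
  intro V _ H m B h T TT RR hnew hR d hd hG
  obtain ⟨N, e, Z, h1, h2, h3, h4, h5, h6⟩ := h.exists_tor hnew T
  have hsep := h6 d hd hG
  have hReg : Reg Z (fun t => TT t.val)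
      (fun t => univ.filter fun x => e.symm x ∈ RR t.val) := by
    refine ⟨fun t ht hup hsub => ?_⟩
    have ht0 : 0 < t.val := by
      rcases Nat.eq_zero_or_pos t.val with h0 | h0
      · exact absurd (H578.up_zero Z h0) hup
      · exact h0
    rcases hR.step t.val t.isLt ht ht0 with h7 | ⟨h7, h8⟩
    · exfalso
      apply hsub
      intro x hx
      rw [mem_filter]
      refine ⟨mem_univ _, h7 ?_⟩
      rw [← h2 t (e.symm x), e.apply_symm_apply]
      exact hx
    · have h7' : TT (Z.up t).val := by rw [h4 t]; exact h7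
      refine ⟨h7', ?_, ?_⟩
      · ext x
        rw [mem_filter, mem_filter, h4 t, h8]
      · obtain ⟨v, hv, hBv⟩ := hR.one (Z.up t).val (Z.up t).isLt h7'
        have key : ∀ z, Z.tor z = Z.up t → e.symm z = v := by
          intro z hz
          have hzH : z ∈ Z.H (Z.up t) := by
            unfold Tor.H
            rw [mem_union, mem_filter]
            exact Or.inr ⟨mem_univ _, hz⟩
          have h9 : e.symm z ∈ B (Z.up t).val := by
            rw [← h3 (Z.up t) (e.symm z), e.apply_symm_apply]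
            exact hzH
          rw [hBv] at h9
          rcases h9 with h9 | h9
          · exact h9
          · exfalso
            rw [← h2 (Z.up t) (e.symm z), e.apply_symm_apply] at h9
            have h10 := Z.low _ z h9
            rw [hz] at h10
            exact lt_irrefl _ h10
        intro z z' hz hz'
        have h11 := (key z hz).trans (key z' hz').symm
        exact e.symm.injective h11
  obtain ⟨F, g1, g2, g3, g4⟩ := n_half_low Z hk hC1.le (HN _ _ Z _ hsep _ _ hReg)
  have hF1 : IsL1 fun x y => F (e x) (e y) := by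
    obtain ⟨ι, hι, w, c, hw, hF⟩ := g1
    exact ⟨ι, hι, w, fun i x => c i (e x), hw, fun x y => hF _ _⟩
  have hF2 : ∀ t < m, ∀ x ∈ B t, ∀ y ∈ B t, F (e x) (e y) ≤ d x y := by
    intro t ht x hx y hy
    have := g2 ⟨t, ht⟩ (e x) ((h3 ⟨t, ht⟩ x).2 hx) (e y) ((h3 ⟨t, ht⟩ y).2 hy)
    simpa using this
  refine ⟨fun x y => F (e x) (e y), hF1, ?_, ?_, ?_⟩
  · refine hF1.le_of_gen hG fun u v huv => ?_
    rcases le_total (h.it u) (h.it v) with h7 | h7
    · exact hF2 _ (h.it_lt v) u (h.edge huv h7) v (h.it_mem v)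
    · exact hF2 _ (h.it_lt u) u (h.it_mem u) v (h.edge huv.symm h7)
  · intro t ht h0 x hx y hy r hr ha
    refine g3 ⟨t, ht⟩ (Nat.pos_iff_ne_zero.1 h0) (e x) ((h5 ⟨t, ht⟩ x).2 hx) (e y)
      (fun hc => hy ((h5 ⟨t, ht⟩ y).1 hc)) r hr ?_
    intro a hal
    have h7 : e.symm a ∈ Adh B t := by
      rw [← h2 ⟨t, ht⟩, e.apply_symm_apply]
      exact hal
    have := ha _ h7
    simpa using this
  · -- the lower bound
    have hneg : ∀ x y (M : ℝ), M ≤ 0 → min cN 1 * M ≤ F (e x) (e y) := fun x y M hM =>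
      (mul_nonpos_of_nonneg_of_nonpos (lt_min hcN one_pos).le hM).trans (g1.nonneg _ _)
    -- new vertex against the adhesion
    have hone : ∀ s < m, TT s → ∀ x ∈ B s, x ∉ Adh B s → ∀ y ∈ Adh B s, ∀ M : ℝ, M ≤ d x y →
        (∀ r ∈ RR s, ∀ r' ∈ RR s, M ≤ d x r + d y r') → min cN 1 * M ≤ F (e x) (e y) := by
      intro s hs hts x hx hxA y hy M hM1 hM2
      rcases le_or_gt M 0 with h0 | h0
      · exact hneg x y M h0
      have hxt : Z.tor (e x) = ⟨s, hs⟩ := by
        have h7 : e x ∈ Z.H ⟨s, hs⟩ := (h3 ⟨s, hs⟩ x).2 hx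
        unfold Tor.H at h7
        rw [mem_union, mem_filter] at h7
        rcases h7 with h7 | h7
        · exact absurd ((h2 ⟨s, hs⟩ x).1 h7) hxA
        · exact h7.2
      have h8 := g4 ⟨s, hs⟩ hts (e x) hxt (e y) ((h2 ⟨s, hs⟩ y).2 hy) M
        (by simpa using hM1) (by
          intro r hr r' hr'
          rw [mem_filter] at hr hr'
          have := hM2 _ hr.2 _ hr'.2
          simpa using this)
      exact (mul_le_mul_of_nonneg_right (min_le_left _ _) h0.le).trans h8
    intro s
    induction s using Nat.strong_induction_on with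
    | _ s ih =>
      intro hs hts x hx y hy M hM1 hM2
      by_cases hxA : x ∈ Adh B s
      · by_cases hyA : y ∈ Adh B s
        · have hs0 : 0 < s := by
            rcases Nat.eq_zero_or_pos s with h0 | h0
            · subst h0
              obtain ⟨_, s', hs', _⟩ := hxA
              omega
            · exact h0
          rcases hR.step s hs hts hs0 with h7 | ⟨h7, h8⟩
          · have h9 := hM2 x (h7 hxA) y (h7 hyA)
            rw [hd.self, hd.self, add_zero] at h9
            exact hneg x y M h9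
          · have hlt := T.par_lt s hs0 hs
            have h9 := T.adh s hs0 hs
            exact ih (T.par s) hlt (hlt.trans hs) h7 x (h9 hxA) y (h9 hyA) M hM1
              (by rw [h8]; exact hM2)
        · have h7 := hone s hs hts y hy hyA x hxA M (by rw [hd.symm]; exact hM1) (by
            intro r hr r' hr'
            have := hM2 r' hr' r hr
            linarith)
          rw [g1.symm] at h7
          exact h7
      · by_cases hyA : y ∈ Adh B s
        · exact hone s hs hts x hx hxA y hyA M hM1 hM2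
        · obtain ⟨v, hv, hBv⟩ := hR.one s hs hts
          have hxv : x = v := by
            rw [hBv] at hx
            rcases hx with h7 | h7
            · exact h7
            · exact absurd h7 hxA
          have hyv : y = v := by
            rw [hBv] at hy
            rcases hy with h7 | h7
            · exact h7
            · exact absurd h7 hyA
          subst hxv
          subst hyv
          rw [hd.self] at hM1
          exact hneg _ _ M hM1

end Vale.Agent.P235.K5.SX.H332
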